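import Vale.Agent.P346.Num

namespace Vale.Agent.P346

open Finset MvPolynomial Real

theorem num {n t : ℕ} (h1 : t ^ 2 ≤ n) (h2 : n < (t + 1) ^ 2) (ht : exp 416 ≤ t) {S : ℝ}
    (S0 : 0 ≤ S) (h : ∀ y : ℝ, 1 ≤ y → y ^ (16 * t) = t →
      1 ≤ S ^ 2 * ((y⁻¹ * (1 + 3 / t)) ^ n + (2 * y ^ (-(8 * t : ℤ))) ^ t * (n + 1)) *
        (6 * t ^ 2 * n ^ 2 * exp (2 * t))) : (n : ℝ) ^ (1 / 512 * √n) ≤ S := by
  have t0 : (417 : ℝ) ≤ t := by linarith [add_one_le_exp (416 : ℝ)]
  have t1 : 417 ≤ t := by exact_mod_cast t0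
  have L0 : 416 ≤ log t := (le_log_iff_exp_le (by linarith)).2 ht
  have n1 : (n : ℝ) + 1 ≤ (t + 1) ^ 2 := by exact_mod_cast h2
  have n0 : (0 : ℝ) < n := by exact_mod_cast (by nlinarith : 0 < n)
  have y1 : 1 ≤ exp (log t / (16 * t)) := one_le_exp (by positivity)
  have := h _ y1 (by
    rw [← exp_nat_mul, Nat.cast_mul, Nat.cast_ofNat, mul_div_cancel₀ _ (by positivity),
      exp_log (by linarith)])
  have yt : exp (log t / (16 * t)) ^ (t * t) = exp (t * log t / 16) := by
    rw [← exp_nat_mul]; congr 1; push_cast; field_simp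
  generalize exp (log t / (16 * t)) = y at *
  have y0 : 0 < y := by linarith
  have E : (t : ℝ) + 1 ≤ exp t := add_one_le_exp _
  have a1 : (y⁻¹ * (1 + 3 / t)) ^ n ≤ (y ^ (t * t))⁻¹ * exp t ^ 4 := by
    rw [mul_pow, inv_pow]
    refine mul_le_mul (inv_anti₀ (by positivity) (pow_le_pow_right₀ y1 (by nlinarith))) ?_
      (by positivity) (by positivity)
    refine (pow_le_pow_right₀ (le_add_of_nonneg_right (by positivity))
      (by nlinarith : n ≤ t * (t + 3))).trans ?_
    rw [pow_mul]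
    refine (pow_le_pow_left₀ (by positivity) (epow t (by norm_num : (0 : ℝ) ≤ 3)) _).trans ?_
    rw [← exp_nat_mul, ← exp_nat_mul]
    exact exp_le_exp.2 (by push_cast; linarith)
  have a2 : (2 * y ^ (-(8 * t : ℤ))) ^ t * (n + 1) ≤ (y ^ (t * t))⁻¹ * exp t ^ 4 := by
    rw [show (8 * t : ℤ) = (8 * t : ℕ) by push_cast; ring, zpow_neg, zpow_natCast, mul_pow, inv_pow,
      ← pow_mul, mul_right_comm, mul_comm]
    refine mul_le_mul (inv_anti₀ (by positivity) (pow_le_pow_right₀ y1 (by nlinarith))) ?_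
      (by positivity) (by positivity)
    have b1 : (2 : ℝ) ^ t ≤ exp t := by
      rw [← mul_one (t : ℝ), exp_nat_mul]
      exact pow_le_pow_left₀ zero_le_two (by linarith [add_one_le_exp (1 : ℝ)]) _
    calc (2 : ℝ) ^ t * (n + 1) ≤ exp t ^ 2 * exp t ^ 2 := by
          refine mul_le_mul (b1.trans (le_self_pow₀ (by linarith) two_ne_zero))
            (n1.trans (by gcongr)) (by positivity) (by positivity)
      _ = _ := by ring
  have a3 : 6 * (t : ℝ) ^ 2 * n ^ 2 * exp (2 * t) ≤ 6 * exp t ^ 2 * (exp t ^ 2) ^ 2 * exp t ^ 2 := by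
    have : (n : ℝ) ≤ exp t ^ 2 := by nlinarith [pow_le_pow_left₀ (by positivity) E 2]
    rw [show exp (2 * t) = exp t ^ 2 by rw [← exp_nat_mul]; norm_num]
    gcongr; linarith
  have a4 : 1 ≤ S ^ 2 * ((y ^ (t * t))⁻¹ * exp t ^ 13) := by
    refine (this.trans (mul_le_mul (mul_le_mul_of_nonneg_left (add_le_add a1 a2) (sq_nonneg S)) a3
      (by positivity) (by positivity))).trans ?_
    have : 0 ≤ S ^ 2 * ((y ^ (t * t))⁻¹ * exp t ^ 12) := by positivity
    nlinarith [mul_le_mul_of_nonneg_left (show 12 ≤ exp (t : ℝ) by linarith) this]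
  rw [yt, ← exp_neg, ← exp_nat_mul, ← exp_add] at a4
  refine le_of_pow_le_pow_left₀ two_ne_zero S0 ?_
  rw [rpow_def_of_pos n0, ← exp_nat_mul]
  rw [← div_le_iff₀ (exp_pos _), one_div, ← exp_neg] at a4
  refine (exp_le_exp.2 ?_).trans a4
  have c1 : √n ≤ 2 * t := sqrt_le_iff.2 ⟨by positivity, by nlinarith⟩
  have c2 : log n ≤ 4 * log t := by
    rw [show 4 * log t = log (t ^ 4) by rw [log_pow]; norm_num]
    refine log_le_log n0 ?_
    have : ((t : ℝ) + 1) ^ 2 ≤ (t ^ 2) ^ 2 := pow_le_pow_left₀ (by positivity) (by nlinarith) 2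
    nlinarith
  have c3 := mul_le_mul c1 c2 (log_natCast_nonneg n) (by positivity)
  push_cast
  nlinarith

variable {w : ℕ}

theorem path {S : Type*} [CommSemiring S] (k : ℕ) (f : Fin k → Matrix (Fin w) (Fin w) S) (i j : Fin w) :
    (List.ofFn f).prod i j = ∑ v : Fin (k + 1) → Fin w with v 0 = i ∧ v (Fin.last k) = j,
      ∏ l, f l (v l.castSucc) (v l.succ) := by
  induction k generalizing i with
  | zero =>
    rw [sum_filter, ← (Equiv.funUnique (Fin 1) (Fin w)).symm.sum_comp]
    simp [Matrix.one_apply, ite_and]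
  | succ k ih =>
    rw [List.ofFn_succ, List.prod_cons, Matrix.mul_apply, sum_filter,
      ← (Fin.consEquiv fun _ => Fin w).sum_comp, Fintype.sum_prod_type]
    rw [sum_eq_single (f := fun x : Fin w => ∑ y : Fin (k + 1) → Fin w, _) i
      (fun b _ hb => by simp [Fin.consEquiv, hb]) (by simp)]
    simp only [ih, sum_filter, mul_sum]
    rw [sum_comm]
    refine sum_congr rfl fun v _ => ?_
    rw [sum_eq_single (v 0) (fun b _ hb => by simp [hb.symm]) (by simp)]
    simp [Fin.prod_univ_succ, Fin.consEquiv, ← Fin.succ_last]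

theorem ofFn_range {α : Type*} (k : ℕ) (M : ℕ → α) :
    (List.ofFn fun i : Fin k => M i) = (List.range k).map M := by
  refine List.ext_getElem (by simp) fun i _ _ => by simp

theorem blocks {α : Type*} [Monoid α] (M : ℕ → α) (s t : ℕ) :
    (List.ofFn fun b : Fin s => (List.ofFn fun r : Fin t => M (b * t + r)).prod).prod =
      ((List.range (s * t)).map M).prod := by
  induction s with
  | zero => simp
  | succ s ih =>
    rw [List.ofFn_succ_last, List.prod_append, add_mul, one_mul, List.range_add, List.map_append,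
      List.prod_append, ← ih]
    simp [ofFn_range t fun r => M (s * t + r), Function.comp_def]

theorem pad {α : Type*} [Monoid α] (M : ℕ → α) {n k : ℕ} (h : n ≤ k) (hM : ∀ l, n ≤ l → M l = 1) :
    ((List.range k).map M).prod = ((List.range n).map M).prod := by
  induction k, h using Nat.le_induction with
  | base => rfl
  | succ k h ih => rw [List.range_succ, List.map_append, List.prod_append, ih]; simp [hM k h]

end Vale.Agent.P346
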