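import Vale.Agent.P346.Upper

namespace Vale.Agent.P346

open Finset MvPolynomial

set_option linter.unusedSectionVars false

theorem trace_sq {m n : Type*} [Fintype m] [Fintype n] (M : Matrix m n ℝ) :
    (∑ s, ∑ t, M s t ^ 2) ^ 2 ≤ M.rank * ∑ s, ∑ s', (∑ t, M s t * M s' t) ^ 2 := by
  classical
  have hA : (M * M.transpose).IsHermitian := by
    simpa using Matrix.isHermitian_mul_conjTranspose_self M
  have h1 : ∑ s, ∑ t, M s t ^ 2 = ∑ i, hA.eigenvalues i := by
    have := hA.trace_eq_sum_eigenvalues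
    simpa [Matrix.trace, Matrix.mul_apply, sq] using this
  have h2 : ∑ s, ∑ s', (∑ t, M s t * M s' t) ^ 2 = ∑ i, hA.eigenvalues i ^ 2 := by
    have a : ((M * M.transpose) * (M * M.transpose)).trace = ∑ i, hA.eigenvalues i ^ 2 := by
      conv_lhs => rw [hA.spectral_theorem, ← map_mul, Unitary.conjStarAlgAut_apply,
        Matrix.trace_mul_cycle, Unitary.coe_star_mul_self, one_mul]
      simp [sq]
    rw [← a]
    simp only [Matrix.trace, Matrix.diag_apply, Matrix.mul_apply (M := M * M.transpose)]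
    refine sum_congr rfl fun s _ => sum_congr rfl fun s' _ => ?_
    simp only [Matrix.mul_apply, Matrix.transpose_apply, sq, mul_comm (M s' _)]
  rw [h1, h2, ← M.rank_self_mul_transpose, hA.rank_eq_card_non_zero_eigs, Fintype.card_subtype,
    ← sum_filter_ne_zero]
  exact sq_sum_le_card_mul_sum_sq.trans (mul_le_mul_of_nonneg_left
    (sum_le_sum_of_subset_of_nonneg (filter_subset _ _) fun _ _ _ => sq_nonneg _) (Nat.cast_nonneg _))

theorem rank_le_of {F K m n : Type*} [Field F] [Field K] [Fintype m] [Fintype n] (A : Matrix m n F)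
    (B : Matrix m n K) (h : ∀ s : Finset n, LinearIndependent F (fun i : s => A.col i) →
      LinearIndependent K (fun i : s => B.col i)) : A.rank ≤ B.rank := by
  classical
  obtain ⟨s, -, h2, h3⟩ := exists_linearIndepOn_extension (K := F) (v := A.col)
    (linearIndepOn_empty F A.col) (Set.empty_subset Set.univ)
  obtain ⟨s, rfl⟩ := s.toFinite.exists_finset_coe
  rw [Matrix.rank_eq_finrank_span_cols, Matrix.rank_eq_finrank_span_cols]
  have a := finrank_span_eq_card (h s h3.2)
  have b := finrank_span_eq_card (b := fun i : s => A.col i) h3.2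
  calc _ ≤ Module.finrank F (Submodule.span F (Set.range fun i : s => A.col i)) := by
        refine Submodule.finrank_mono (Submodule.span_le.2 ?_)
        rw [← Set.image_univ]
        refine h3.1.trans (Submodule.span_mono ?_)
        rintro _ ⟨i, hi, rfl⟩; exact ⟨⟨i, hi⟩, rfl⟩
    _ = _ := b.trans a.symm
    _ ≤ _ := Submodule.finrank_mono (Submodule.span_mono (by rintro _ ⟨i, rfl⟩; exact ⟨i, rfl⟩))

theorem rank_change {K m n : Type*} [Field K] [CharZero K] [Fintype m] [Fintype n]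
    (A : Matrix m n ℚ) : (A.map (algebraMap ℚ ℝ)).rank ≤ (A.map (algebraMap ℚ K)).rank :=
  (rank_le_of _ A fun s h => (linearIndependent_algebraMap_comp_iff (S := ℝ)
    (v := fun i : s => A.col i)).1 h).trans (rank_le_of _ _ fun s h =>
    (linearIndependent_algebraMap_comp_iff (S := K) (v := fun i : s => A.col i)).2 h)

theorem count {V : Type} [Fintype V] [DecidableEq V] (Y F : Finset V) (hF : F ⊆ Y) {c : ℝ}
    (hc : 0 < c) {q : ℕ} (H : ∀ j < q, c * h Y j ≤ h Y (j + 1)) :
    c ^ #F * #{β ∈ finsuppAntidiag Y q | ∀ v ∈ F, 1 ≤ β v} ≤ h Y q := by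
  have e : ∀ v, (∑ u ∈ F, Finsupp.single u 1 : V →₀ ℕ) v = if v ∈ F then 1 else 0 := fun v => by
    simp [Finsupp.finsetSum_apply, Finsupp.single_apply]
  have k : ∀ β ∈ {β ∈ finsuppAntidiag Y q | ∀ v ∈ F, 1 ≤ β v},
      ∑ v ∈ Y, (β - ∑ u ∈ F, Finsupp.single u 1 : V →₀ ℕ) v + #F = q ∧
      β - ∑ u ∈ F, Finsupp.single u 1 + ∑ u ∈ F, Finsupp.single u 1 = β := fun β hβ => by
    rw [mem_filter, mem_finsuppAntidiag] at hβ
    have : β - ∑ u ∈ F, Finsupp.single u 1 + ∑ u ∈ F, Finsupp.single u 1 = β :=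
      tsub_add_cancel_of_le fun v => by rw [e]; split_ifs with h; exacts [hβ.2 v h, Nat.zero_le _]
    refine ⟨?_, this⟩
    have h2 : ∑ v ∈ Y, β v = ∑ v ∈ Y, (β - ∑ u ∈ F, Finsupp.single u 1 +
      ∑ u ∈ F, Finsupp.single u 1 : V →₀ ℕ) v := by rw [this]
    simp only [Finsupp.add_apply, sum_add_distrib, e, sum_ite_mem, inter_eq_right.2 hF] at h2
    rw [← hβ.1.1, ← card_eq_sum_ones] at *; exact h2.symm
  rcases ({β ∈ finsuppAntidiag Y q | ∀ v ∈ F, 1 ≤ β v}).eq_empty_or_nonempty with h0 | ⟨β, hβ⟩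
  · rw [h0]; simp [h]
  refine le_trans (mul_le_mul_of_nonneg_left ?_ (by positivity))
    (down Y hc H #F (by have := (k β hβ).1; omega))
  refine Nat.cast_le.2 (card_le_card_of_injOn (fun β => β - ∑ u ∈ F, Finsupp.single u 1)
    (fun β hβ => ?_) fun β hβ β' hβ' h => by rw [← (k β hβ).2, ← (k β' hβ').2]; exact congrArg (· + _) h)
  have := k β hβ
  rw [mem_coe, mem_filter, mem_finsuppAntidiag] at hβ
  refine mem_coe.2 (mem_finsuppAntidiag.2 ⟨eq_tsub_of_add_eq this.1, subset_trans (fun v hv => ?_) hβ.1.2⟩)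
  rw [Finsupp.mem_support_iff] at hv ⊢
  intro h; simp [h] at hv

theorem abel_sum (W χ : ℕ → ℤ) (a : ℤ) (hW : ∀ j, |W j| ≤ a) (hχ : ∀ j, χ j = 0 ∨ χ j = 1) (n : ℕ) :
    ∑ l ∈ range n, χ l * (W (l + 1) - W l) ≤
      a * (1 + ∑ l ∈ range n, if χ l ≠ (if l = 0 then 0 else χ (l - 1)) then 1 else 0) := by
  have : ∀ n, ∑ l ∈ range n, χ l * (W (l + 1) - W l) - (if n = 0 then 0 else χ (n - 1)) * W n ≤
      a * ∑ l ∈ range n, if χ l ≠ (if l = 0 then 0 else χ (l - 1)) then 1 else 0 := fun n => by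
    induction n with
    | zero => simp
    | succ n ih =>
      rw [sum_range_succ, sum_range_succ, mul_add]
      have h1 := abs_le.1 (hW n)
      have h2 : (if n = 0 then 0 else χ (n - 1)) = 0 ∨ (if n = 0 then 0 else χ (n - 1)) = 1 := by
        split_ifs; exacts [Or.inl rfl, hχ _]
      generalize (if n = 0 then 0 else χ (n - 1)) = c at *
      simp only [Nat.add_one_ne_zero, if_false, Nat.add_sub_cancel]
      rcases hχ n with h | h <;> rcases h2 with rfl | rfl <;> simp [h] at ih ⊢ <;> linarith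
  have h := this n
  have h1 := abs_le.1 (hW n)
  have h2 : (if n = 0 then 0 else χ (n - 1)) = 0 ∨ (if n = 0 then 0 else χ (n - 1)) = 1 := by
    split_ifs; exacts [Or.inl rfl, hχ _]
  rcases h2 with h2 | h2 <;> rw [h2] at h <;> linarith

variable {n : ℕ} [NeZero n]

def χ (J : Finset (Fin n)) (j : ℕ) : ℤ := if h : j < n then if ⟨j, h⟩ ∈ J then 1 else 0 else 0

def D (J : Finset (Fin n)) : Finset (Fin n) :=
  univ.filter fun l => χ J l ≠ if l.1 = 0 then 0 else χ J (l - 1)

theorem χ01 (J : Finset (Fin n)) (j : ℕ) : χ J j = 0 ∨ χ J j = 1 := by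
  unfold χ; split_ifs <;> simp

theorem χ_coe (J : Finset (Fin n)) (l : Fin n) : χ J l = if l ∈ J then 1 else 0 := by simp [χ]

theorem D_inj {J J' : Finset (Fin n)} (h : D J = D J') : J = J' := by
  have : ∀ j, χ J j = χ J' j := fun j => by
    induction j using Nat.strong_induction_on with
    | _ j ih =>
    by_cases hj : j < n
    · have := Finset.ext_iff.1 h ⟨j, hj⟩
      simp only [D, mem_filter, mem_univ, true_and] at this
      have a := χ01 J j; have b := χ01 J' j; have c := χ01 J' (j - 1)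
      split_ifs at this with h0
      · omega
      · rw [ih (j - 1) (by omega)] at this; omega
    · simp [χ, hj]
  ext l
  have := this l
  rw [χ_coe, χ_coe] at this
  split_ifs at this <;> simp_all

def P (n : ℕ) [NeZero n] : Finset (Fin (n + 1) → Fin n) :=
  univ.filter fun v => v 0 = 0 ∧ v (Fin.last n) = 0

theorem fiber (u : Fin (n + 1) → Fin n) (A : Finset (Fin n)) :
    #{v ∈ P n | ∀ l ∈ A, u l.castSucc = v l.castSucc} * n ^ #A ≤ #(P n) * n := by
  have e : P n = Fintype.piFinset fun j => if j = 0 ∨ j = Fin.last n then {0} else univ := by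
    ext v
    simp only [P, mem_filter, mem_univ, true_and, Fintype.mem_piFinset]
    refine ⟨fun h j => ?_, fun h => ⟨by simpa using h 0, by simpa using h (Fin.last n)⟩⟩
    split_ifs with hj
    · rcases hj with rfl | rfl <;> simp [h]
    · simp
  have a : {v ∈ P n | ∀ l ∈ A, u l.castSucc = v l.castSucc} ⊆ Fintype.piFinset fun j =>
      if j ∈ A.map Fin.castSuccEmb then {u j} else
        if j = 0 ∨ j = Fin.last n then {0} else univ := fun v hv => by
    rw [mem_filter, e, Fintype.mem_piFinset] at hv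
    refine Fintype.mem_piFinset.2 fun j => ?_
    by_cases hj : j ∈ A.map Fin.castSuccEmb
    · rw [if_pos hj]
      obtain ⟨l, hl, rfl⟩ := mem_map.1 hj
      exact mem_singleton.2 (hv.2 l hl).symm
    · rw [if_neg hj]; exact hv.1 j
  refine (Nat.mul_le_mul_right _ (card_le_card a)).trans ?_
  rw [e, Fintype.card_piFinset, Fintype.card_piFinset,
    show n ^ #A = ∏ j, if j ∈ A.map Fin.castSuccEmb then n else 1 by
      rw [prod_ite_mem, univ_inter, prod_const, card_map],
    ← prod_mul_distrib]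
  refine le_trans (prod_le_prod' (g := fun j => #(if j = 0 ∨ j = Fin.last n then ({0} : Finset (Fin n))
    else univ) * if j = 0 then n else 1) fun j _ => ?_) (by rw [prod_mul_distrib]; simp)
  have := NeZero.one_le (n := n)
  by_cases hj : j ∈ A.map Fin.castSuccEmb
  · obtain ⟨l, hl, rfl⟩ := mem_map.1 hj
    have : Fin.castSuccEmb l ≠ Fin.last n := (Fin.castSucc_lt_last l).ne
    rw [if_pos hj, if_pos hj]
    generalize Fin.castSuccEmb l = j at *
    by_cases h0 : j = 0 <;> simp [h0, this]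
  · rw [if_neg hj, if_neg hj]
    exact Nat.mul_le_mul_left _ (by split_ifs <;> omega)

abbrev V (n : ℕ) := Fin n × Fin n × Fin n

def ed (v : Fin (n + 1) → Fin n) (l : Fin n) : V n := (l, v l.castSucc, v l.succ)

noncomputable def mo (v : Fin (n + 1) → Fin n) : V n →₀ ℕ := ∑ l, Finsupp.single (ed v l) 1

theorem mo_apply (v : Fin (n + 1) → Fin n) (x : V n) : mo v x = if ed v x.1 = x then 1 else 0 := by
  rw [mo, Finsupp.finsetSum_apply, sum_eq_single x.1 (fun l _ hl => Finsupp.single_eq_of_ne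
    fun h => hl (congrArg Prod.fst h).symm) (by simp), Finsupp.single_apply]

def Y (L : Finset (Fin n)) : Finset (V n) := univ.filter fun x => x.1 ∈ L

theorem Y_compl (L : Finset (Fin n)) : (Y L)ᶜ = Y Lᶜ := by ext; simp [Y]

theorem mo_deg (v : Fin (n + 1) → Fin n) (L : Finset (Fin n)) : ∑ x ∈ Y L, mo v x = #L := by
  simp only [mo, Finsupp.finsetSum_apply]
  rw [sum_comm]
  simp [Finsupp.single_apply, Y, ed]

noncomputable def imm (K : Type*) [Field K] (n : ℕ) [NeZero n] : MvPolynomial (V n) K :=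
  ∑ v ∈ P n, ∏ l, X (ed v l)

open Classical in
theorem Mx_imm (K : Type*) [Field K] (L : Finset (Fin n)) (A B : Finset (St (V n))) (s : A) (t : B) :
    Mx (Y L) K A B (imm K n) s t = ∑ v ∈ P n, if rel (Y L) (mo v) s t then 1 else 0 := by
  rw [imm, map_sum, Matrix.sum_apply]
  refine sum_congr rfl fun v _ => ?_
  rw [show ∏ l, X (ed v l) = monomial (mo v) (1 : K) by
    rw [mo, monomial_sum_one]; rfl, Mx_mono, Matrix.of_apply]

abbrev Q4 (n : ℕ) := (Fin (n + 1) → Fin n) × (Fin (n + 1) → Fin n) × (Fin (n + 1) → Fin n) ×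
  (Fin (n + 1) → Fin n)

def J (L : Finset (Fin n)) (q : Q4 n) : Finset (Fin n) :=
  univ.filter fun l => if l ∈ L then ed q.1 l = ed q.2.2.2 l else ed q.1 l ≠ ed q.2.1 l

def Cp (L : Finset (Fin n)) (q : Q4 n) : Prop := ∀ l,
  if l ∈ J L q then ed q.1 l = ed q.2.2.2 l ∧ ed q.2.1 l = ed q.2.2.1 l
  else ed q.1 l = ed q.2.1 l ∧ ed q.2.2.1 l = ed q.2.2.2 l

theorem cp_of (L : Finset (Fin n)) (q : Q4 n) (h : mo q.1 + mo q.2.2.1 = mo q.2.1 + mo q.2.2.2) :
    Cp L q := by
  intro l
  have k : ∀ v : Fin (n + 1) → Fin n, _ := fun v => Finsupp.ext_iff.1 h (ed v l)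
  simp only [Finsupp.add_apply, mo_apply, show ∀ v, (ed v l).1 = l from fun _ => rfl] at k
  have k1 := k q.1; have k2 := k q.2.1; have k3 := k q.2.2.1; have k4 := k q.2.2.2
  simp only [J, mem_filter, mem_univ, true_and]
  generalize ed q.1 l = a at *; generalize ed q.2.1 l = b at *
  generalize ed q.2.2.1 l = c at *; generalize ed q.2.2.2 l = d at *
  grind

open Classical in
theorem quad (L A : Finset (Fin n)) :
    #{q ∈ P n ×ˢ P n ×ˢ P n ×ˢ P n | Cp L q ∧ D (J L q) = A} * n ^ #A ≤ #(P n) ^ 2 * n ^ 2 := by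
  have a : #{q ∈ P n ×ˢ P n ×ˢ P n ×ˢ P n | Cp L q ∧ D (J L q) = A} ≤
      #((P n).sigma fun u => {v ∈ P n | ∀ l ∈ A.erase 0, u l.castSucc = v l.castSucc}) := by
    refine card_le_card_of_injOn (fun q => ⟨q.1, q.2.2.1⟩) (fun q hq => ?_) fun q hq q' hq' h => ?_
    · simp only [mem_coe, mem_filter, mem_product, mem_sigma, mem_erase] at hq ⊢
      refine ⟨hq.1.1, hq.1.2.2.1, fun l hl => ?_⟩
      have h0 : l.1 ≠ 0 := fun h => hl.1 (Fin.ext h)
      have h1 := hq.2.1 l
      have h2 := hq.2.1 ⟨l - 1, by omega⟩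
      have h3 := hq.2.2 ▸ hl.2
      simp only [D, mem_filter, mem_univ, true_and, if_neg h0] at h3
      rw [χ_coe, χ_coe _ ⟨l - 1, by omega⟩] at h3
      simp only [ed, Prod.mk.injEq, true_and, show (⟨l - 1, by omega⟩ : Fin n).succ = l.castSucc by
        ext; simp; omega] at h1 h2
      grind
    · simp only [mem_coe, mem_filter, mem_product, P, mem_univ, true_and] at hq hq'
      obtain ⟨h1, h3⟩ := Sigma.mk.inj_iff.1 h
      replace h3 := eq_of_heq h3
      have hJ := D_inj (hq.2.2.trans hq'.2.2.symm)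
      have : ∀ j, q.2.1 j = q'.2.1 j ∧ q.2.2.2 j = q'.2.2.2 j := fun j => by
        rcases Fin.eq_castSucc_or_eq_last j with ⟨l, rfl⟩ | rfl
        · have a := hq.2.1 l; have b := hq'.2.1 l
          simp only [ed, Prod.mk.injEq, true_and, ← hJ, ← h1, ← h3] at a b
          grind
        · grind
      exact Prod.ext h1 (Prod.ext (funext fun j => (this j).1) (Prod.ext h3 (funext fun j => (this j).2)))
  rw [card_sigma] at a
  calc _ ≤ (∑ u ∈ P n, #{v ∈ P n | ∀ l ∈ A.erase 0, u l.castSucc = v l.castSucc}) *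
        (n ^ #(A.erase 0) * n) := Nat.mul_le_mul a (by
          rw [← pow_succ]
          exact Nat.pow_le_pow_right NeZero.one_le (by have := pred_card_le_card_erase (s := A) (a := 0); omega))
    _ ≤ (∑ u ∈ P n, #(P n) * n) * n := by
        rw [← mul_assoc, sum_mul]
        exact Nat.mul_le_mul_right _ (sum_le_sum fun u _ => fiber u _)
    _ = _ := by simp; ring

end Vale.Agent.P346
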