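import Vale.Agent.P346.Lower

namespace Vale.Agent.P346

open Finset MvPolynomial

set_option linter.unusedSectionVars false

variable {n : ℕ} [NeZero n]

theorem h_nonneg {V : Type} [Fintype V] [DecidableEq V] (Y : Finset V) (j : ℕ) : 0 ≤ h Y j :=
  Nat.cast_nonneg _

open Classical in
theorem first (L : Finset (Fin n)) (p l : ℕ) (v : Fin (n + 1) → Fin n) :
    h (Y L) p * h (Y L)ᶜ l ≤ ∑ s ∈ S (Y L) (p + #L) l, ∑ t ∈ S (Y L) p (l + #Lᶜ),
      if rel (Y L) (mo v) s t then (1 : ℝ) else 0 := by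
  rw [← sum_product', sum_boole, h, h, ← Nat.cast_mul, ← card_product, Nat.cast_le]
  refine card_le_card_of_injOn (fun u => ((u.1 + (mo v).filter (· ∈ Y L), u.2),
    (u.1, u.2 + (mo v).filter (· ∈ (Y L)ᶜ)))) (fun u hu => ?_) fun u _ u' _ h => ?_
  · have hu := (mem_S (Y L)).1 hu
    have hr : rel (Y L) (mo v) (u.1 + (mo v).filter (· ∈ Y L), u.2)
      (u.1, u.2 + (mo v).filter (· ∈ (Y L)ᶜ)) := ⟨rfl, rfl⟩
    have hd := rel_deg _ hr
    rw [mo_deg, hu.1.1, hu.2.1] at hd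
    rw [Y_compl, mo_deg, ← Y_compl] at hd
    simp only [mem_coe, mem_filter, mem_product, mem_S]
    exact ⟨⟨⟨⟨hd.1, fun x hx => by simp [hu.1.2 x hx, hx]⟩, hu.2⟩, hu.1, hd.2,
      fun x hx => by simp [hu.2.2 x hx, hx]⟩, hr⟩
  · simp only [Prod.mk.injEq] at h; exact Prod.ext h.2.1 h.1.2

open Classical in
theorem second (L : Finset (Fin n)) (W : ℕ → ℤ) {y : ℝ} (hy : 1 ≤ y) {a b p l : ℕ}
    (hW : ∀ j, |W j| ≤ a) (hs : ∀ i : Fin n, W (i + 1) - W i = if i ∈ L then (a : ℤ) else -b)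
    (H1 : ∀ j < p, y ^ (2 * a) * h (Y L) j ≤ h (Y L) (j + 1))
    (H4 : ∀ j < l, y ^ (2 * b) * h (Y L)ᶜ j ≤ h (Y L)ᶜ (j + 1)) (j j' : ℕ) (q : Q4 n) :
    (y ^ (2 * a)) ^ #L * ∑ s ∈ S (Y L) j l, ∑ s' ∈ S (Y L) j l, ∑ t ∈ S (Y L) p j',
      ∑ t' ∈ S (Y L) p j', (if rel (Y L) (mo q.1) s t then (1 : ℝ) else 0) *
        (if rel (Y L) (mo q.2.1) s' t then (1 : ℝ) else 0) *
        (if rel (Y L) (mo q.2.2.1) s' t' then (1 : ℝ) else 0) *
        (if rel (Y L) (mo q.2.2.2) s t' then (1 : ℝ) else 0) ≤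
      h (Y L) p * h (Y L)ᶜ l * if Cp L q then (y ^ (2 * a)) ^ (1 + #(D (J L q))) else 0 := by
  have y0 : 0 < y := by linarith
  simp only [ite_zero_mul_ite_zero, mul_one]
  rw [show ∀ (A B : Finset (St (V n))) (f : St (V n) → St (V n) → St (V n) → St (V n) → ℝ),
    ∑ s ∈ A, ∑ s' ∈ A, ∑ t ∈ B, ∑ t' ∈ B, f s s' t t' =
      ∑ x ∈ A ×ˢ A ×ˢ B ×ˢ B, f x.1 x.2.1 x.2.2.1 x.2.2.2 from fun _ _ _ => by
        simp only [sum_product], sum_boole]
  split_ifs with hc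
  swap
  · rw [filter_false_of_mem]
    · simp
    rintro x - ⟨⟨⟨h1, h2⟩, h3⟩, h4⟩
    refine hc (cp_of L q (Finsupp.ext fun v => ?_))
    have a1 := (rel_iff _).1 h1 v; have a2 := (rel_iff _).1 h2 v
    have a3 := (rel_iff _).1 h3 v; have a4 := (rel_iff _).1 h4 v
    simp only [Finsupp.add_apply]
    split_ifs at * <;> omega
  have inj : ∀ v : Fin (n + 1) → Fin n, Function.Injective (ed v) := fun v _ _ h =>
    congrArg Prod.fst h
  have c1 := count (Y L) ((L \ J L q).image (ed q.2.2.2)) (fun x hx => by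
    obtain ⟨i, hi, rfl⟩ := mem_image.1 hx
    simpa [Y, ed] using (mem_sdiff.1 hi).1) (by positivity) H1
  have c2 := count (Y L)ᶜ ((J L q \ L).image (ed q.2.1)) (fun x hx => by
    obtain ⟨i, hi, rfl⟩ := mem_image.1 hx
    simpa [Y, ed] using (mem_sdiff.1 hi).2) (by positivity) H4
  rw [card_image_of_injective _ (inj _)] at c1 c2
  have c3 : #{x ∈ S (Y L) j l ×ˢ S (Y L) j l ×ˢ S (Y L) p j' ×ˢ S (Y L) p j' |
      ((rel (Y L) (mo q.1) x.1 x.2.2.1 ∧ rel (Y L) (mo q.2.1) x.2.1 x.2.2.1) ∧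
        rel (Y L) (mo q.2.2.1) x.2.1 x.2.2.2) ∧ rel (Y L) (mo q.2.2.2) x.1 x.2.2.2} ≤
      #({β ∈ finsuppAntidiag (Y L) p | ∀ v ∈ (L \ J L q).image (ed q.2.2.2), 1 ≤ β v} ×ˢ
        {β ∈ finsuppAntidiag (Y L)ᶜ l | ∀ v ∈ (J L q \ L).image (ed q.2.1), 1 ≤ β v}) := by
    refine card_le_card_of_injOn (fun x => (x.2.2.1.1, x.1.2)) (fun x hx => ?_) fun x hx x' hx' h => ?_
    · simp only [mem_coe, mem_filter, mem_product, S, forall_mem_image, mem_sdiff, J, mem_univ,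
        true_and] at hx ⊢
      obtain ⟨⟨b1, -, b2, -⟩, ⟨⟨h1, h2⟩, -⟩, h4⟩ := hx
      refine ⟨⟨b2.1, fun i hi => ?_⟩, b1.2, fun i hi => ?_⟩
      · have a1 := ((rel_iff _).1 h1 (ed q.2.2.2 i)).1
        have a4 := ((rel_iff _).1 h4 (ed q.2.2.2 i)).1
        have : ed q.2.2.2 i ∈ Y L := by simpa [Y, ed] using hi.1
        rw [if_pos hi.1] at hi
        rw [if_pos this, mo_apply, show (ed q.2.2.2 i).1 = i from rfl] at a1 a4
        rw [if_neg hi.2] at a1; rw [if_pos rfl] at a4; omega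
      · have a1 := ((rel_iff _).1 h1 (ed q.2.1 i)).2
        have a4 := ((rel_iff _).1 h2 (ed q.2.1 i)).2
        have : ed q.2.1 i ∉ Y L := by simpa [Y, ed] using hi.2
        rw [if_neg hi.2] at hi
        rw [if_neg this, mo_apply, show (ed q.2.1 i).1 = i from rfl] at a1 a4
        rw [if_neg hi.1] at a1; rw [if_pos rfl] at a4; omega
    · simp only [mem_coe, mem_filter, Prod.mk.injEq] at hx hx' h
      obtain ⟨-, ⟨⟨h1, h2⟩, -⟩, h4⟩ := hx
      obtain ⟨-, ⟨⟨k1, k2⟩, -⟩, k4⟩ := hx'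
      have e1 : x.1.1 = x'.1.1 := by rw [h1.1, k1.1, h.1]
      have e2 : x.2.2.1.2 = x'.2.2.1.2 := by rw [h1.2, k1.2, h.2]
      exact Prod.ext (Prod.ext e1 h.2) (Prod.ext (Prod.ext (by rw [h2.1, k2.1, h.1])
        (add_right_cancel (h2.2.symm.trans (e2.trans k2.2)))) (Prod.ext (Prod.ext h.1 e2)
        (Prod.ext (add_right_cancel (h4.1.symm.trans (e1.trans k4.1))) (by rw [h4.2, k4.2, h.2]))))
  rw [card_product] at c3
  have ab := abel_sum W (χ (J L q)) a hW (χ01 _) n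
  rw [← Fin.sum_univ_eq_sum_range (fun i => χ (J L q) i * (W (i + 1) - W i)),
    ← Fin.sum_univ_eq_sum_range (fun i => if χ (J L q) i ≠ (if i = 0 then 0 else χ (J L q) (i - 1))
      then (1 : ℤ) else 0), sum_boole] at ab
  have e1 : ∑ i : Fin n, χ (J L q) i * (W (i + 1) - W i) = a * #(L ∩ J L q) - b * #(J L q \ L) := by
    simp only [χ_coe, hs, card_eq_sum_ones, Nat.cast_sum, mul_sum]
    rw [← univ_inter (L ∩ _), ← univ_inter (_ \ L), ← sum_ite_mem, ← sum_ite_mem, ← sum_sub_distrib]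
    exact sum_congr rfl fun i _ => by by_cases h1 : i ∈ L <;> by_cases h2 : i ∈ J L q <;> simp [h1, h2]
  rw [e1] at ab
  have e2 : (y ^ (2 * a)) ^ #(L ∩ J L q) ≤
      (y ^ (2 * a)) ^ (1 + #(D (J L q))) * (y ^ (2 * b)) ^ #(J L q \ L) := by
    rw [← pow_mul, ← pow_mul, ← pow_mul, ← pow_add]
    refine pow_le_pow_right₀ hy ?_
    zify; unfold D; linarith
  rw [← card_sdiff_add_card_inter L (J L q), pow_add]
  have c4 := (Nat.cast_le (α := ℝ)).2 c3
  rw [Nat.cast_mul] at c4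
  refine (mul_le_mul (mul_le_mul_of_nonneg_left e2 (pow_nonneg (pow_nonneg y0.le _) _)) c4
    (Nat.cast_nonneg _) (by positivity)).trans ?_
  refine le_of_eq_of_le ?_ (mul_le_mul_of_nonneg_right (mul_le_mul c1 c2
    (mul_nonneg (by positivity) (Nat.cast_nonneg _)) (h_nonneg _ _)) (by positivity))
  ring

theorem fin {H P c G r r' T U : ℝ} (hh : 0 ≤ H) (P0 : 0 < P) (c0 : 0 < c) (G0 : 0 ≤ G) (r0 : 0 ≤ r)
    (rk : r ≤ r') (t1 : P * H ≤ T) (tr : T ^ 2 ≤ r * U) (t2 : c * U ≤ H * (P ^ 2 * G)) :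
    H * c ≤ r' * G := by
  rcases hh.eq_or_lt with rfl | hh
  · rw [zero_mul]; exact mul_nonneg (r0.trans rk) G0
  have t3 := mul_le_mul_of_nonneg_left ((pow_le_pow_left₀ (by positivity) t1 2).trans tr) c0.le
  rw [mul_left_comm] at t3
  have t4 := t3.trans ((mul_le_mul_of_nonneg_left t2 r0).trans
    (mul_le_mul_of_nonneg_right rk (by positivity)))
  refine le_of_mul_le_mul_left ?_ (show 0 < H * P ^ 2 by positivity)
  linarith

open Classical in
theorem lower (K : Type*) [Field K] [CharZero K] (L : Finset (Fin n)) (W : ℕ → ℤ) {y : ℝ}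
    (hy : 1 ≤ y) {a b p l : ℕ}
    (hW : ∀ j, |W j| ≤ a) (hs : ∀ i : Fin n, W (i + 1) - W i = if i ∈ L then (a : ℤ) else -b)
    (H1 : ∀ j < p, y ^ (2 * a) * h (Y L) j ≤ h (Y L) (j + 1))
    (H4 : ∀ j < l, y ^ (2 * b) * h (Y L)ᶜ j ≤ h (Y L)ᶜ (j + 1)) :
    h (Y L) p * h (Y L)ᶜ l * (y ^ (2 * a)) ^ #L ≤
      (Mx (Y L) K (S (Y L) (p + #L) l) (S (Y L) p (l + #Lᶜ)) (imm K n)).rank *
        (y ^ (2 * a) * n ^ 2 * (1 + y ^ (2 * a) / n) ^ n) := by
  have y0 : 0 < y := by linarith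
  have n0 : (0 : ℝ) < n := by exact_mod_cast NeZero.pos n
  generalize hα : y ^ (2 * a) = α
  have α0 : 0 < α := by rw [← hα]; positivity
  set A := S (Y L) (p + #L) l
  set B := S (Y L) p (l + #Lᶜ)
  have mp : (Mx (Y L) ℚ A B (imm ℚ n)).map (algebraMap ℚ K) =
      Mx (Y L) K A B (imm K n) := by ext s t; simp [Mx_imm]
  have mp' : (Mx (Y L) ℚ A B (imm ℚ n)).map (algebraMap ℚ ℝ) = Mx (Y L) ℝ A B (imm ℝ n) := by
    ext s t; simp [Mx_imm]
  have rk := rank_change (K := K) (Mx (Y L) ℚ A B (imm ℚ n))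
  rw [mp, mp'] at rk
  have tr := trace_sq (Mx (Y L) ℝ A B (imm ℝ n))
  simp only [Mx_imm] at tr
  let r : (Fin (n + 1) → Fin n) → St (V n) → St (V n) → ℝ := fun v s t =>
    if rel (Y L) (mo v) s t then 1 else 0
  have t1 : #(P n) * (h (Y L) p * h (Y L)ᶜ l) ≤ ∑ s : A, ∑ t : B, (∑ v ∈ P n, r v s t) ^ 2 := by
    calc _ = ∑ v ∈ P n, h (Y L) p * h (Y L)ᶜ l := by simp
      _ ≤ ∑ v ∈ P n, ∑ s : A, ∑ t : B, r v s t := sum_le_sum fun v _ => (first L p l v).trans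
          (le_of_eq (by
            rw [← sum_coe_sort]; exact sum_congr rfl fun s _ => (sum_coe_sort _ _).symm))
      _ ≤ _ := by
          rw [sum_comm]
          refine sum_le_sum fun s _ => ?_
          rw [sum_comm]
          refine sum_le_sum fun t _ => ?_
          simp only [r, sum_boole]
          exact_mod_cast Nat.le_self_pow two_ne_zero _
  have t2 : α ^ #L * ∑ s : A, ∑ s' : A, (∑ t : B, (∑ v ∈ P n, r v s t) * ∑ v ∈ P n, r v s' t) ^ 2 ≤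
      h (Y L) p * h (Y L)ᶜ l * (#(P n) ^ 2 * (α * n ^ 2 * (1 + α / n) ^ n)) := by
    have e : ∑ s : A, ∑ s' : A, (∑ t : B, (∑ v ∈ P n, r v s t) * ∑ v ∈ P n, r v s' t) ^ 2 =
        ∑ q ∈ P n ×ˢ P n ×ˢ P n ×ˢ P n, ∑ s ∈ A, ∑ s' ∈ A, ∑ t ∈ B, ∑ t' ∈ B,
          r q.1 s t * r q.2.1 s' t * r q.2.2.1 s' t' * r q.2.2.2 s t' := by
      rw [sum_comm (s := P n ×ˢ _), ← sum_coe_sort A]
      refine sum_congr rfl fun s _ => ?_
      rw [sum_comm (s := P n ×ˢ _), ← sum_coe_sort A]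
      refine sum_congr rfl fun s' _ => ?_
      rw [sum_comm (s := P n ×ˢ _), ← sum_coe_sort B, sq, sum_mul_sum]
      refine sum_congr rfl fun t _ => ?_
      rw [sum_comm (s := P n ×ˢ _), ← sum_coe_sort B]
      refine sum_congr rfl fun t' _ => ?_
      simp only [sum_product, ← mul_sum, ← sum_mul]; ring
    rw [e, mul_sum, ← hα]
    refine (sum_le_sum fun q _ => second L W hy hW hs H1 H4 _ _ q).trans ?_
    rw [← mul_sum, hα]
    refine mul_le_mul_of_nonneg_left ?_ (mul_nonneg (h_nonneg _ _) (h_nonneg _ _))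
    rw [← sum_filter, ← sum_fiberwise_of_maps_to (g := fun q => D (J L q)) (t := univ.powerset)
      (by simp), show (1 + α / n) ^ n = ∏ i : Fin n, (1 + α / n) by simp, prod_one_add,
      mul_sum, mul_sum]
    refine sum_le_sum fun D' _ => ?_
    rw [filter_filter, sum_congr rfl (g := fun _ => α ^ (1 + #D')) fun q hq => by
      rw [(mem_filter.1 hq).2.2], sum_const, nsmul_eq_mul, prod_const, div_pow, ← mul_div_assoc,
      ← mul_div_assoc, le_div_iff₀ (by positivity)]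
    have := (Nat.cast_le (α := ℝ)).2 (quad L D')
    push_cast at this
    have := mul_le_mul_of_nonneg_right this (show 0 ≤ α ^ (1 + #D') by positivity)
    rw [pow_add, pow_one] at *
    linarith
  have P0 : (0 : ℝ) < #(P n) := by exact_mod_cast card_pos.2 ⟨0, by simp [P]⟩
  exact fin (mul_nonneg (h_nonneg (Y L) p) (h_nonneg (Y L)ᶜ l)) P0 (pow_pos α0 _) (by positivity)
    (Nat.cast_nonneg _) ((Nat.cast_le (α := ℝ)).2 rk) t1 tr t2

end Vale.Agent.P346
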