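import Vale.Agent.P346.Lower2

namespace Vale.Agent.P346

open Finset MvPolynomial

theorem g_nonneg {y : ℝ} (hy : 1 ≤ y) (a b e : ℕ) : 0 ≤ g y a b e :=
  sum_nonneg fun _ _ => zpow_nonneg (by linarith) _

theorem g_triv {y : ℝ} (hy : 1 ≤ y) (a b e : ℕ) : g y a b e ≤ e + 1 := by
  refine (sum_le_card_nsmul _ _ 1 fun κ _ => zpow_le_one_of_nonpos₀ hy (by simp)).trans (by simp)

theorem g_one {y : ℝ} (hy : 1 ≤ y) (t e : ℕ) (he : e ≤ 1) :
    g y (8 * t + 4) (8 * t) e ≤ (2 * y ^ (-(8 * t : ℤ))) ^ e := by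
  interval_cases e
  · simp [g]
  · simp only [g, sum_range_succ, range_zero, sum_empty, pow_one, two_mul, zero_add]
    refine add_le_add (zpow_le_zpow_right₀ hy ?_) (zpow_le_zpow_right₀ hy ?_) <;>
      simp [le_abs]

theorem ite_le (s : Finset ℕ) (i : ℕ) {c : ℝ} (hc : 0 ≤ c) : ∑ κ ∈ s, (if κ = i then c else 0) ≤ c := by
  rw [sum_ite_eq']; split_ifs <;> simp [hc]

theorem g_small {y : ℝ} (hy : 1 ≤ y) {t e : ℕ} (ht : 81 ≤ t) (hyt : y ^ (16 * t) = t) (he : e < t) :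
    g y (8 * t + 4) (8 * t) e ≤ (y⁻¹ * (1 + 3 / t)) ^ e := by
  have y0 : 0 < y := by linarith
  have t0 : (81 : ℝ) ≤ t := by exact_mod_cast ht
  rcases e.eq_zero_or_pos with rfl | e0
  · simp [g]
  refine le_trans ?_ (show (y ^ e)⁻¹ * (1 + 3 / t) ≤ _ by
    rw [mul_pow, inv_pow]
    exact mul_le_mul_of_nonneg_left (le_self_pow₀ (by simp; positivity) e0.ne') (by positivity))
  have x1 : 1 ≤ y ^ e := one_le_pow₀ hy
  have x2 : (y ^ e) ^ 16 ≤ t := by
    rw [← hyt, ← pow_mul]; exact pow_le_pow_right₀ hy (by omega)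
  have et : (e : ℝ) + 1 ≤ t := by exact_mod_cast he
  have z : ∀ i : ℕ, y ^ (2 * e - 8 * t * i : ℤ) = (y ^ e) ^ 2 * (y ^ (8 * t))⁻¹ ^ i := fun i => by
    rw [zpow_sub₀ y0.ne', inv_pow, ← pow_mul, ← pow_mul, ← zpow_natCast, ← zpow_natCast, div_eq_mul_inv]
    push_cast; rw [mul_comm (e : ℤ)]
  have z0 : y ^ (-(2 * e) : ℤ) = ((y ^ e) ^ 2)⁻¹ := by
    rw [zpow_neg, ← pow_mul, ← zpow_natCast]; push_cast; rw [mul_comm]
  have r2 : (y ^ (8 * t))⁻¹ ^ 2 = 1 / t := by rw [inv_pow, ← pow_mul, ← hyt, one_div]; ring_nf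
  have r0 : 0 < (y ^ (8 * t))⁻¹ := by positivity
  have k : ∀ κ ≤ e, ∀ i : ℕ, (i : ℤ) ≤ |2 * (κ : ℤ) - e| →
      y ^ (-|((8 * t + 4 : ℕ) * κ - (8 * t : ℕ) * (e - κ : ℕ) : ℤ)|) ≤
        (y ^ e) ^ 2 * (y ^ (8 * t))⁻¹ ^ i := fun κ hκ i hi => by
    rw [← z]
    refine zpow_le_zpow_right₀ hy ?_
    rw [Nat.cast_sub hκ]; push_cast
    rcases le_abs.1 hi with h | h
    · nlinarith [le_abs_self ((8 * t + 4) * κ - 8 * t * (e - κ) : ℤ)]
    · nlinarith [neg_le_abs ((8 * t + 4) * κ - 8 * t * (e - κ) : ℤ)]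
  generalize (y ^ (8 * t))⁻¹ = r at *
  have x6 : 9 * (y ^ e) ^ 6 ≤ t := by
    by_contra h
    have a : (y ^ e) ^ 6 * (y ^ e) ^ 6 ≤ (y ^ e) ^ 16 := by
      rw [← pow_add]; exact pow_le_pow_right₀ x1 (by norm_num)
    nlinarith [pow_pos (pow_pos y0 e) 6]
  unfold g
  obtain ⟨h, rfl | rfl⟩ := Nat.even_or_odd' e
  · refine (sum_le_sum (g := fun κ => (if κ = h then ((y ^ (2 * h)) ^ 2)⁻¹ else 0) +
      (if κ = h + 1 then (y ^ (2 * h)) ^ 2 * r ^ 2 else 0) +
      (if κ = h - 1 then (y ^ (2 * h)) ^ 2 * r ^ 2 else 0) + (y ^ (2 * h)) ^ 2 * r ^ 4)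
      fun κ hκ => ?_).trans ?_
    · have hκ := Nat.lt_succ_iff.1 (mem_range.1 hκ)
      have p1 : 0 ≤ (y ^ (2 * h)) ^ 2 * r ^ 4 := by positivity
      have p2 : 0 ≤ (y ^ (2 * h)) ^ 2 * r ^ 2 := by positivity
      by_cases h1 : κ = h
      · rw [if_pos h1, if_neg (by omega), if_neg (by omega), ← z0, h1, show 2 * h - h = h by omega,
          abs_of_nonneg (by push_cast; nlinarith)]
        rw [show -(((8 * t + 4 : ℕ) : ℤ) * h - (8 * t : ℕ) * h) = -(2 * (2 * h : ℕ)) by push_cast; ring]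
        linarith
      rw [if_neg h1]
      by_cases h2 : κ = h + 1 ∨ κ = h - 1
      · have := k κ hκ 2 (by rw [le_abs]; omega)
        split_ifs <;> first | linarith | omega
      · have := k κ hκ 4 (by rw [le_abs]; omega)
        rw [if_neg (by omega), if_neg (by omega)]; linarith
    · simp only [sum_add_distrib, sum_const, card_range, nsmul_eq_mul]
      generalize y ^ (2 * h) = x at *
      have a1 := ite_le (range (2 * h + 1)) h (c := (x ^ 2)⁻¹) (by positivity)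
      have a2 := ite_le (range (2 * h + 1)) (h + 1) (c := x ^ 2 * r ^ 2) (by positivity)
      have a3 := ite_le (range (2 * h + 1)) (h - 1) (c := x ^ 2 * r ^ 2) (by positivity)
      have a4 : ((2 * h + 1 : ℕ) : ℝ) * (x ^ 2 * r ^ 4) ≤ x ^ 2 * r ^ 2 := by
        rw [show r ^ 4 = r ^ 2 * r ^ 2 by ring, r2]; push_cast at et ⊢
        field_simp; linarith
      have a5 : (x ^ 2)⁻¹ + 3 * (x ^ 2 * r ^ 2) ≤ x⁻¹ * (1 + 3 / t) := by
        rw [r2]; field_simp
        have b1 : x ≤ x ^ 6 := le_self_pow₀ x1 (by norm_num)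
        have b2 : x ^ 2 ≤ x ^ 6 := pow_le_pow_right₀ x1 (by norm_num)
        have b3 : x ^ 3 ≤ x ^ 6 := pow_le_pow_right₀ x1 (by norm_num)
        nlinarith [mul_le_mul_of_nonneg_left (show 3 * (x + x ^ 2 + x ^ 3) ≤ t by linarith)
          (sub_nonneg.2 x1)]
      linarith
  · refine (sum_le_sum (g := fun κ => (if κ = h then (y ^ (2 * h + 1)) ^ 2 * r ^ 1 else 0) +
      (if κ = h + 1 then (y ^ (2 * h + 1)) ^ 2 * r ^ 1 else 0) + (y ^ (2 * h + 1)) ^ 2 * r ^ 3)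
      fun κ hκ => ?_).trans ?_
    · have hκ := Nat.lt_succ_iff.1 (mem_range.1 hκ)
      have p1 : 0 ≤ (y ^ (2 * h + 1)) ^ 2 * r ^ 3 := by positivity
      have p2 : 0 ≤ (y ^ (2 * h + 1)) ^ 2 * r ^ 1 := by positivity
      by_cases h2 : κ = h ∨ κ = h + 1
      · have := k κ hκ 1 (by rw [le_abs]; omega)
        split_ifs <;> first | linarith | omega
      · have := k κ hκ 3 (by rw [le_abs]; omega)
        rw [if_neg (by omega), if_neg (by omega)]; linarith
    · simp only [sum_add_distrib, sum_const, card_range, nsmul_eq_mul]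
      generalize y ^ (2 * h + 1) = x at *
      have a1 := ite_le (range (2 * h + 1 + 1)) h (c := x ^ 2 * r ^ 1) (by positivity)
      have a2 := ite_le (range (2 * h + 1 + 1)) (h + 1) (c := x ^ 2 * r ^ 1) (by positivity)
      have a4 : ((2 * h + 1 + 1 : ℕ) : ℝ) * (x ^ 2 * r ^ 3) ≤ x ^ 2 * r ^ 1 := by
        rw [show r ^ 3 = r ^ 2 * r by ring, r2]; push_cast at et ⊢
        field_simp; linarith
      have a5 : 3 * (x ^ 2 * r ^ 1) ≤ x⁻¹ := by
        rw [← one_div, le_div_iff₀ (by linarith)]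
        refine (pow_le_one_iff_of_nonneg (by positivity) two_ne_zero).1 ?_
        rw [show (3 * (x ^ 2 * r ^ 1) * x) ^ 2 = 9 * x ^ 6 * r ^ 2 by ring, r2, mul_one_div,
          div_le_one (by linarith)]
        exact x6
      have a6 : 0 ≤ x⁻¹ * (3 / t) := by positivity
      linarith

theorem ratio {V : Type} [Fintype V] [DecidableEq V] (Y : Finset V) (j : ℕ) :
    (j + 1) * h Y (j + 1) = (#Y + j) * h Y j := by
  unfold h
  rw [card_finsuppAntidiag_nat_eq_choose, card_finsuppAntidiag_nat_eq_choose]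
  rcases (#Y + j).eq_zero_or_pos with h | h
  · have h1 : #Y = 0 := by omega
    have h2 : j = 0 := by omega
    simp [h1, h2]
  · have := Nat.add_one_mul_choose_eq (#Y + j - 1) j
    rw [show #Y + j - 1 + 1 = #Y + j by omega] at this
    rw [show #Y + (j + 1) - 1 = #Y + j by omega, mul_comm]
    exact_mod_cast this.symm

theorem cross {V : Type} [Fintype V] [DecidableEq V] (Y : Finset V) {c : ℝ} (hc : 2 ≤ c) :
    ∃ q : ℕ, (∀ j < q, c * h Y j ≤ h Y (j + 1)) ∧ (#Y + q : ℝ) ≤ c * (q + 1) := by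
  have ex : ∃ q : ℕ, (#Y + q : ℝ) ≤ c * (q + 1) := ⟨#Y, by nlinarith [Nat.cast_nonneg (α := ℝ) #Y]⟩
  refine ⟨Nat.find ex, fun j hj => ?_, Nat.find_spec ex⟩
  have := not_le.1 (Nat.find_min ex hj)
  refine le_of_mul_le_mul_left ?_ (show (0 : ℝ) < j + 1 by positivity)
  rw [ratio]; nlinarith [h_nonneg Y j]

theorem cross' {V : Type} [Fintype V] [DecidableEq V] (Y : Finset V) {c : ℝ} (hc : 1 ≤ c) {q : ℕ}
    (hq : (#Y + q : ℝ) ≤ c * (q + 1)) (j : ℕ) (hj : q ≤ j) : h Y (j + 1) ≤ c * h Y j := by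
  refine le_of_mul_le_mul_left ?_ (show (0 : ℝ) < j + 1 by positivity)
  have : (q : ℝ) ≤ j := by exact_mod_cast hj
  rw [ratio, ← mul_assoc]
  exact mul_le_mul_of_nonneg_right (by nlinarith) (h_nonneg Y j)

def W (t : ℕ) : ℕ → ℤ
  | 0 => 0
  | j + 1 => W t j + if W t j < 0 then ((8 * t + 4 : ℕ) : ℤ) else -(8 * t : ℕ)

theorem W_bd (t j : ℕ) : -((8 * t : ℕ) : ℤ) ≤ W t j ∧ W t j ≤ (8 * t + 4 : ℕ) := by
  induction j with
  | zero => simp [W]; omega
  | succ j ih => unfold W; split_ifs <;> omega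

theorem epow (n : ℕ) {A : ℝ} (hA : 0 ≤ A) : (1 + A / n) ^ n ≤ Real.exp A := by
  rcases n.eq_zero_or_pos with rfl | h
  · simpa using hA
  have : (0 : ℝ) < n := by exact_mod_cast h
  refine (pow_le_pow_left₀ (by positivity) ((add_comm 1 (A / n)).trans_le (Real.add_one_le_exp (A / n))) n).trans ?_
  rw [← Real.exp_nat_mul, mul_div_cancel₀ _ this.ne']

theorem h_pos {V : Type} [Fintype V] [DecidableEq V] (Y : Finset V) {c : ℝ} (hc : 0 < c) {q : ℕ}
    (H : ∀ j < q, c * h Y j ≤ h Y (j + 1)) : 0 < h Y q := by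
  have := down Y hc H q le_rfl
  rw [Nat.sub_self, show h Y 0 = 1 by simp [h], mul_one] at this
  exact (pow_pos hc q).trans_le this

theorem u3' {A t : ℝ} {n : ℕ} (A0 : 0 < A) (h : A ≤ 2 * t) :
    A * n ^ 2 * (1 + A / n) ^ n ≤ 2 * t * n ^ 2 * Real.exp (2 * t) := by
  have := (epow n A0.le).trans (Real.exp_le_exp.2 h)
  gcongr
  linarith [mul_nonneg (A0.le.trans h) (sq_nonneg (n : ℝ))]

theorem fin2 {r a a' b B T t G U U' : ℝ} (lo : a * b * B ≤ r * U) (u2 : r ≤ T * (a' * b * t * G))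
    (u1 : a' ≤ 3 * B * a) (u3 : U ≤ U') (a0 : 0 < a) (b0 : 0 < b) (B0 : 0 < B) (T0 : 0 ≤ T)
    (t0 : 0 ≤ t) (G0 : 0 ≤ G) (U0 : 0 ≤ U) : 1 ≤ T * G * (3 * t * U') := by
  have h1 : r ≤ T * (3 * B * a * b * t * G) := u2.trans (by gcongr)
  have h2 := lo.trans (mul_le_mul h1 u3 U0 (by positivity))
  refine le_of_mul_le_mul_left ?_ (show 0 < a * b * B by positivity)
  linarith

set_option maxHeartbeats 400000 in
/-- The rank measure: subadditive, small on products, large on `imm`. -/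
theorem measure (K : Type*) [Field K] [CharZero K] {n t : ℕ} [NeZero n] {y : ℝ} (hy : 1 ≤ y)
    (ht : 81 ≤ t) (hyt : y ^ (16 * t) = t) (hn : t ^ 2 ≤ n) {τ : Type} (T : Finset τ)
    (c : τ → K) (f : τ → MvPolynomial (V n) K) (hf : imm K n = ∑ x ∈ T, c x • f x) {G : ℝ}
    (hG : ∀ x ∈ T, c x ≠ 0 → f x ≠ 0 → ∃ (ι : Type) (_ : Fintype ι) (Q : ι → MvPolynomial (V n) K)
      (e : ι → ℕ), f x = ∏ i, Q i ∧ (∀ i, (Q i).IsHomogeneous (e i)) ∧ ∑ i, e i = n ∧
      ∏ i, g y (8 * t + 4) (8 * t) (e i) ≤ G) (G0 : 0 ≤ G) :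
    1 ≤ #T * G * (6 * t ^ 2 * n ^ 2 * Real.exp (2 * t)) := by
  classical
  have y0 : 0 < y := by linarith
  have t0 : (81 : ℝ) ≤ t := by exact_mod_cast ht
  have n0 : (0 : ℝ) < n := by exact_mod_cast NeZero.pos n
  let L : Finset (Fin n) := univ.filter fun i => W t i < 0
  have hs : ∀ i : Fin n, W t (i + 1) - W t i = if i ∈ L then ((8 * t + 4 : ℕ) : ℤ) else -(8 * t : ℕ) :=
    fun i => by simp [W, L]
  have cL : #Lᶜ = n - #L := by simp [card_compl]
  have kn : #L ≤ n := by simpa using card_le_univ L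
  have H3 : -((8 * t : ℕ) : ℤ) ≤ (8 * t + 4 : ℕ) * (#L : ℤ) - (8 * t : ℕ) * (n - #L) := by
    have a := sum_range_sub (W t) n
    rw [← Fin.sum_univ_eq_sum_range (fun i => W t (i + 1) - W t i), sum_congr rfl fun i _ => hs i,
      sum_ite, sum_const, sum_const, filter_mem_eq_inter, univ_inter, filter_not,
      filter_mem_eq_inter, univ_inter, ← compl_eq_univ_sdiff, cL, nsmul_eq_mul, nsmul_eq_mul,
      Nat.cast_sub kn, W] at a
    linarith [(W_bd t n).1]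
  have β : y ^ (2 * (8 * t)) = t := by rw [← hyt]; ring_nf
  have y8 : y ^ 8 ≤ 2 := by
    refine le_of_pow_le_pow_left₀ (n := 2 * t) (by omega) zero_le_two ?_
    rw [← pow_mul, show 8 * (2 * t) = 16 * t by ring, hyt]
    exact_mod_cast (Nat.lt_two_pow_self.le.trans (Nat.pow_le_pow_right two_pos (by omega)))
  have α : y ^ (2 * (8 * t + 4)) = t * y ^ 8 := by rw [← hyt]; ring_nf
  have y1 : 1 ≤ y ^ 8 := one_le_pow₀ hy
  obtain ⟨q, q1, q2⟩ := cross (Y L) (c := y ^ (2 * (8 * t + 4))) (by rw [α]; nlinarith)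
  obtain ⟨l, l1, l2⟩ := cross (Y L)ᶜ (c := y ^ (2 * (8 * t))) (by rw [β]; linarith)
  have cY : #(Y L) = #L * n ^ 2 := by
    rw [show Y L = L ×ˢ univ by ext; simp [Y], card_product]; simp [sq]
  have q3 : #L * (n + 1) ≤ q + 1 := by
    have hn' : (t : ℝ) ^ 2 ≤ n := by exact_mod_cast hn
    have : (#L : ℝ) * (n + 1) * (2 * t) ≤ (q + 1) * (2 * t) := by
      rw [cY, α] at q2; push_cast at q2
      have b : (n + 1) * (2 * t) ≤ (n : ℝ) ^ 2 := by nlinarith
      nlinarith [mul_le_mul_of_nonneg_left b (Nat.cast_nonneg (α := ℝ) #L),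
        mul_le_mul_of_nonneg_left y8 (show (0 : ℝ) ≤ t * (q + 1) by positivity)]
    exact_mod_cast le_of_mul_le_mul_right this (by linarith)
  obtain ⟨p, rfl⟩ : ∃ p, q = p + #L := ⟨q - #L, by
    have := Nat.mul_le_mul_left #L (show 2 ≤ n + 1 by have := NeZero.pos n; omega); omega⟩
  have lo := lower K L (W t) hy (p := p) (fun j => abs_le.2 ⟨by have := W_bd t j; omega, (W_bd t j).2⟩) hs
    (fun j hj => q1 j (by omega)) l1
  generalize hα : y ^ (2 * (8 * t + 4)) = A at *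
  have A0 : 0 < A := by rw [α]; positivity
  have u1 : h (Y L) (p + #L) ≤ 3 * A ^ #L * h (Y L) p := by
    refine (up (Y L) (c := A * (1 + 1 / n)) (by positivity) (cross' _ ?_ ?_) _).trans
      (mul_le_mul_of_nonneg_right ?_ (h_nonneg _ _))
    · have : 0 ≤ A * (1 / n) := by positivity
      nlinarith
    · have : (#L : ℝ) * n ≤ p + 1 := by exact_mod_cast (by nlinarith : #L * n ≤ p + 1)
      have : (#L : ℝ) ≤ 1 / n * (p + 1) := by rw [one_div_mul_eq_div, le_div_iff₀ n0]; exact this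
      push_cast at q2
      nlinarith [mul_le_mul_of_nonneg_left this A0.le, Nat.cast_nonneg (α := ℝ) #L]
    · rw [mul_pow, mul_comm]
      refine mul_le_mul_of_nonneg_right ((pow_le_pow_right₀ (by simp) kn).trans ?_) (by positivity)
      refine le_trans ?_ Real.exp_one_lt_three.le
      simpa using epow n zero_le_one
  have u2 : ((Mx (Y L) K (S (Y L) (p + #L) l) (S (Y L) p (l + #Lᶜ)) (imm K n)).rank : ℝ) ≤
      #T * (h (Y L) (p + #L) * h (Y L)ᶜ l * t * G) := by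
    rw [hf, map_sum, ← nsmul_eq_mul, ← sum_const]
    have pos := mul_nonneg (h_nonneg (Y L) (p + #L)) (h_nonneg (Y L)ᶜ l)
    refine (rank_sum _ _).trans (sum_le_sum fun x hx => ?_)
    by_cases h1 : c x = 0
    · rw [h1, zero_smul, map_zero, Matrix.rank_zero, Nat.cast_zero]
      exact mul_nonneg (mul_nonneg pos (Nat.cast_nonneg t)) G0
    by_cases h2 : f x = 0
    · rw [h2, smul_zero, map_zero, Matrix.rank_zero, Nat.cast_zero]
      exact mul_nonneg (mul_nonneg pos (Nat.cast_nonneg t)) G0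
    obtain ⟨ι, _, Q, e, a1, a2, a3, a4⟩ := hG x hx h1 h2
    rw [map_smul, a1]
    refine (Nat.cast_le.2 (rank_smul _ _)).trans ((upper (Y L) hy (hα ▸ q1)
      (cross' _ (one_le_pow₀ hy) l2) H3 Q e a2 a3 _).trans ?_)
    refine mul_le_mul (mul_le_mul_of_nonneg_left ?_ pos) a4
      (prod_nonneg fun _ _ => g_nonneg hy _ _ _) (mul_nonneg pos (Nat.cast_nonneg t))
    rw [← β]; exact pow_le_pow_right₀ hy (by omega)
  have p1 : 0 < h (Y L) p := h_pos _ A0 fun j hj => q1 j (by omega)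
  have p2 : 0 < h (Y L)ᶜ l := h_pos _ (pow_pos y0 _) l1
  have u3 := u3' (n := n) A0 (t := t) (by rw [α]; nlinarith)
  refine (fin2 lo u2 u1 u3 p1 p2 (pow_pos A0 _) (Nat.cast_nonneg _) (Nat.cast_nonneg _) G0
    (mul_nonneg (mul_nonneg A0.le (sq_nonneg _)) (pow_nonneg (add_nonneg zero_le_one
      (div_nonneg A0.le n0.le)) _))).trans_eq (by ring)

end Vale.Agent.P346
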