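import Mathlib

namespace Vale.Agent.P346

open Finset MvPolynomial

set_option linter.unusedSectionVars false

theorem rank_add {K m n : Type*} [Field K] [Fintype m] [Fintype n] (A B : Matrix m n K) :
    (A + B).rank ≤ A.rank + B.rank := by
  unfold Matrix.rank
  rw [Matrix.mulVecLin_add]
  exact (Submodule.finrank_mono (LinearMap.range_add_le _ _)).trans
    (Submodule.finrank_add_le_finrank_add_finrank _ _)

theorem rank_sum {K m n ι : Type*} [Field K] [Fintype m] [Fintype n] (s : Finset ι)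
    (A : ι → Matrix m n K) : ((∑ i ∈ s, A i).rank : ℝ) ≤ ∑ i ∈ s, ((A i).rank : ℝ) := by
  classical
  induction s using Finset.induction_on with
  | empty => simp
  | insert a s h ih =>
    rw [sum_insert h, sum_insert h]
    have : ((A a + ∑ i ∈ s, A i).rank : ℝ) ≤ (A a).rank + (∑ i ∈ s, A i).rank := by
      exact_mod_cast rank_add _ _
    linarith

theorem rank_smul {K m n : Type*} [Field K] [Fintype m] [Fintype n] (c : K) (A : Matrix m n K) :
    (c • A).rank ≤ A.rank := by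
  classical
  rw [Matrix.smul_eq_mul_diagonal]
  exact Matrix.rank_mul_le_left _ _

variable {V : Type} [Fintype V] [DecidableEq V] (Y : Finset V) {K : Type*} [Field K]

abbrev St (V : Type) := (V →₀ ℕ) × (V →₀ ℕ)

noncomputable def S (j i : ℕ) : Finset (St V) := finsuppAntidiag Y j ×ˢ finsuppAntidiag Yᶜ i

def rel (m : V →₀ ℕ) (s t : St V) : Prop :=
  s.1 = t.1 + m.filter (· ∈ Y) ∧ t.2 = s.2 + m.filter (· ∈ Yᶜ)

open Classical in
noncomputable def Mx (K : Type*) [Field K] (A B : Finset (St V)) :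
    MvPolynomial V K →ₗ[K] Matrix A B K :=
  (basisMonomials V K).constr K fun m => Matrix.of fun s t => if rel Y m s t then 1 else 0

open Classical in
theorem Mx_mono (A B : Finset (St V)) (m : V →₀ ℕ) (c : K) :
    Mx Y K A B (monomial m c) = Matrix.of fun s t => if rel Y m s.1 t.1 then c else 0 := by
  rw [show monomial m c = c • basisMonomials V K m by simp [smul_monomial], map_smul, Mx,
    Module.Basis.constr_basis]
  ext s t; simp

def w (v : V) : ℕ × ℕ := if v ∈ Y then (1, 0) else (0, 1)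

theorem wt (m : V →₀ ℕ) : Finsupp.weight (w Y) m = (∑ v ∈ Y, m v, ∑ v ∈ Yᶜ, m v) := by
  rw [Finsupp.weight_apply, Finsupp.sum_fintype _ _ (by simp), ← sum_add_sum_compl Y,
    sum_congr rfl (g := fun v => (m v, 0)) fun v hv => by simp [w, hv],
    sum_congr (s₁ := Yᶜ) rfl (g := fun v => (0, m v)) fun v hv => by simp [w, mem_compl.1 hv]]
  ext <;> simp [Prod.fst_sum, Prod.snd_sum]

theorem mem_S {j i : ℕ} {s : St V} : s ∈ S Y j i ↔
    (∑ v ∈ Y, s.1 v = j ∧ ∀ v, v ∉ Y → s.1 v = 0) ∧ ∑ v ∈ Yᶜ, s.2 v = i ∧ ∀ v ∈ Y, s.2 v = 0 := by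
  simp only [S, mem_product, mem_finsuppAntidiag, subset_iff, Finsupp.mem_support_iff, mem_compl]
  exact and_congr (and_congr_right fun _ => forall_congr' fun v => by tauto)
    (and_congr_right fun _ => forall_congr' fun v => by tauto)

theorem rel_iff {m : V →₀ ℕ} {s t : St V} : rel Y m s t ↔ ∀ v,
    s.1 v = t.1 v + (if v ∈ Y then m v else 0) ∧ t.2 v = s.2 v + if v ∈ Y then 0 else m v := by
  simp only [rel, Finsupp.ext_iff, Finsupp.add_apply, Finsupp.filter_apply, mem_compl, ite_not,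
    forall_and]

theorem rel_deg {m : V →₀ ℕ} {s t : St V} (h : rel Y m s t) :
    ∑ v ∈ Y, s.1 v = ∑ v ∈ Y, t.1 v + ∑ v ∈ Y, m v ∧
    ∑ v ∈ Yᶜ, t.2 v = ∑ v ∈ Yᶜ, s.2 v + ∑ v ∈ Yᶜ, m v := by
  rw [rel_iff] at h
  simp only [← sum_add_distrib]
  exact ⟨sum_congr rfl fun v hv => by simp [(h v).1, hv],
    sum_congr rfl fun v hv => by simp [(h v).2, mem_compl.1 hv]⟩

theorem Mx_mul {j i x x' : ℕ} (B : Finset (St V)) {f : MvPolynomial V K} (g : MvPolynomial V K)
    (hf : IsWeightedHomogeneous (w Y) f (x, x')) : Mx Y K (S Y j i) B (f * g) =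
      Mx Y K (S Y j i) (S Y (j - x) (i + x')) f * Mx Y K (S Y (j - x) (i + x')) B g := by
  classical
  conv => lhs; rw [f.as_sum, g.as_sum, sum_mul_sum]
  conv => rhs; rw [f.as_sum, g.as_sum]
  simp only [map_sum, Matrix.sum_mul, Matrix.mul_sum, monomial_mul, Mx_mono]
  rw [sum_comm]
  refine sum_congr rfl fun b _ => sum_congr rfl fun a ha => ?_
  have h := hf (mem_support_iff.1 ha)
  rw [wt, Prod.mk.injEq] at h
  ext s t
  simp only [Matrix.of_apply, Matrix.mul_apply]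
  have key : ∀ r : St V, rel Y a s.1 r → rel Y b r t.1 → rel Y (a + b) s.1 t.1 ∧
      r = (t.1.1 + b.filter (· ∈ Y), s.1.2 + a.filter (· ∈ Yᶜ)) := fun r h1 h2 =>
    ⟨⟨by rw [h1.1, h2.1, Finsupp.filter_add]; abel, by rw [h2.2, h1.2, Finsupp.filter_add]; abel⟩,
      Prod.ext h2.1 h1.2⟩
  split_ifs with h0
  · have h1 : rel Y a s.1 (t.1.1 + b.filter (· ∈ Y), s.1.2 + a.filter (· ∈ Yᶜ)) :=
      ⟨by rw [h0.1, Finsupp.filter_add]; dsimp only; abel, rfl⟩
    have h2 : rel Y b (t.1.1 + b.filter (· ∈ Y), s.1.2 + a.filter (· ∈ Yᶜ)) t.1 :=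
      ⟨rfl, by rw [h0.2, Finsupp.filter_add]; dsimp only; abel⟩
    have hs := (mem_S Y).1 s.2
    have hd := rel_deg Y h1
    have hm : (t.1.1 + b.filter (· ∈ Y), s.1.2 + a.filter (· ∈ Yᶜ)) ∈ S Y (j - x) (i + x') := by
      refine (mem_S Y).2 ⟨⟨by omega, fun v hv => ?_⟩, by omega, fun v hv => ?_⟩
      · have := ((rel_iff Y).1 h1 v).1; rw [hs.1.2 v hv] at this; omega
      · rw [((rel_iff Y).1 h1 v).2, hs.2.2 v hv, if_pos hv]
    rw [sum_eq_single ⟨_, hm⟩ (fun r _ hr => ?_) (by simp), if_pos h1, if_pos h2]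
    split_ifs with a1 a2 <;> simp
    exact absurd (Subtype.ext (key r a1 a2).2) hr
  · refine (sum_eq_zero fun r _ => ?_).symm
    split_ifs with a1 a2 <;> simp
    exact absurd (key r a1 a2).1 h0

theorem Mx_zero {j i j' i' x x' : ℕ} {f : MvPolynomial V K}
    (hf : IsWeightedHomogeneous (w Y) f (x, x')) (h : j ≠ j' + x) :
    Mx Y K (S Y j i) (S Y j' i') f = 0 := by
  classical
  rw [f.as_sum, map_sum]
  refine sum_eq_zero fun a ha => ?_
  have h1 := hf (mem_support_iff.1 ha)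
  rw [wt, Prod.mk.injEq] at h1
  ext s t
  rw [Mx_mono, Matrix.of_apply, if_neg, Matrix.zero_apply]
  intro h2
  have := rel_deg Y h2
  have := (mem_S Y).1 s.2
  have := (mem_S Y).1 t.2
  omega

theorem decomp {f : MvPolynomial V K} {e : ℕ} (hf : f.IsHomogeneous e) :
    f = ∑ κ ∈ range (e + 1), weightedHomogeneousComponent (w Y) (κ, e - κ) f := by
  ext m
  simp only [coeff_sum, coeff_weightedHomogeneousComponent, wt, Prod.mk.injEq]
  by_cases h : coeff m f = 0
  · simp [h]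
  have h1 : ∑ v ∈ Y, m v + ∑ v ∈ Yᶜ, m v = e := by
    rw [sum_add_sum_compl, ← hf h, Finsupp.weight_apply, Finsupp.sum_fintype _ _ (by simp)]; simp
  rw [sum_eq_single (∑ v ∈ Y, m v) (fun κ _ hκ => if_neg fun h => hκ h.1.symm)
    (fun h => absurd (mem_range.2 (by omega)) h), if_pos ⟨rfl, by omega⟩]

noncomputable def h (j : ℕ) : ℝ := #(finsuppAntidiag Y j)

theorem rank_mul {j i x x' : ℕ} (B : Finset (St V)) {f : MvPolynomial V K} (g : MvPolynomial V K)
    (hf : IsWeightedHomogeneous (w Y) f (x, x')) :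
    ((Mx Y K (S Y j i) B (f * g)).rank : ℝ) ≤ h Y (j - x) * h Yᶜ (i + x') := by
  rw [Mx_mul Y B g hf]
  have := (Matrix.rank_mul_le_left _ (Mx Y K (S Y (j - x) (i + x')) B g)).trans
    (Matrix.rank_le_card_width (Mx Y K (S Y j i) (S Y (j - x) (i + x')) f))
  rw [Fintype.card_coe] at this
  refine (Nat.cast_le.2 this).trans (le_of_eq ?_)
  rw [S, card_product, Nat.cast_mul]; rfl

noncomputable def g (y : ℝ) (a b e : ℕ) : ℝ :=
  ∑ κ ∈ range (e + 1), y ^ (-|(a * κ - b * (e - κ : ℕ) : ℤ)|)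

theorem down {c : ℝ} (hc : 0 < c) {q : ℕ} (H : ∀ j < q, c * h Y j ≤ h Y (j + 1)) :
    ∀ x ≤ q, c ^ x * h Y (q - x) ≤ h Y q := by
  intro x
  induction x with
  | zero => simp
  | succ x ih =>
    intro hx
    refine le_trans ?_ (ih (by omega))
    rw [pow_succ, mul_assoc, show q - x = q - (x + 1) + 1 by omega]
    exact mul_le_mul_of_nonneg_left (H _ (by omega)) (by positivity)

theorem up {c : ℝ} (hc : 0 < c) {q : ℕ} (H : ∀ j, q ≤ j → h Y (j + 1) ≤ c * h Y j) (x : ℕ) :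
    h Y (q + x) ≤ c ^ x * h Y q := by
  induction x with
  | zero => simp
  | succ x ih =>
    rw [← add_assoc, pow_succ', mul_assoc]
    exact (H _ (by omega)).trans (mul_le_mul_of_nonneg_left ih hc.le)

theorem upper {y : ℝ} (hy : 1 ≤ y) {a b p k l n : ℕ}
    (H1 : ∀ j < p + k, y ^ (2 * a) * h Y j ≤ h Y (j + 1))
    (H2 : ∀ j, l ≤ j → h Yᶜ (j + 1) ≤ y ^ (2 * b) * h Yᶜ j)
    (H3 : -(b : ℤ) ≤ a * k - b * (n - k))
    {ι : Type} [Fintype ι] (Q : ι → MvPolynomial V K) (e : ι → ℕ)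
    (hQ : ∀ i, (Q i).IsHomogeneous (e i)) (he : ∑ i, e i = n) (i' : ℕ) :
    ((Mx Y K (S Y (p + k) l) (S Y p i') (∏ i, Q i)).rank : ℝ) ≤
      h Y (p + k) * h Yᶜ l * y ^ b * ∏ i, g y a b (e i) := by
  classical
  have y0 : 0 < y := by linarith
  rw [prod_congr rfl fun i _ => decomp Y (hQ i), prod_univ_sum, map_sum]
  refine (rank_sum _ _).trans ?_
  simp only [g]
  rw [prod_univ_sum, mul_sum]
  refine sum_le_sum fun κ hκ => ?_
  have hκ' : ∀ i, κ i ≤ e i := fun i => by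
    have := Fintype.mem_piFinset.1 hκ i; rw [mem_range] at this; omega
  have hh : ∀ B : Finset ι, IsWeightedHomogeneous (w Y)
      (∏ i ∈ B, weightedHomogeneousComponent (w Y) (κ i, e i - κ i) (Q i))
      (∑ i ∈ B, κ i, ∑ i ∈ B, (e i - κ i)) := fun B => by
    have := IsWeightedHomogeneous.prod (w := w Y) B
      (fun i => weightedHomogeneousComponent (w Y) (κ i, e i - κ i) (Q i))
      (fun i => (κ i, e i - κ i)) fun i _ => weightedHomogeneousComponent_isWeightedHomogeneous _ _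
    rwa [show ∑ i ∈ B, (κ i, e i - κ i) = (∑ i ∈ B, κ i, ∑ i ∈ B, (e i - κ i)) by
      ext <;> simp [Prod.fst_sum, Prod.snd_sum]] at this
  have h0 : ∀ (Y : Finset V) j, 0 ≤ h Y j := fun _ _ => Nat.cast_nonneg _
  by_cases hk : ∑ i, κ i = k
  swap
  · rw [Mx_zero Y (hh univ) (by omega), Matrix.rank_zero, Nat.cast_zero]
    exact mul_nonneg (mul_nonneg (mul_nonneg (h0 _ _) (h0 _ _)) (pow_nonneg y0.le _))
      (prod_nonneg fun _ _ => zpow_nonneg y0.le _)
  let ε : ι → ℤ := fun i => a * κ i - b * (e i - κ i : ℕ)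
  let B := univ.filter fun i => 0 < ε i
  rw [← prod_mul_prod_compl B]
  refine (rank_mul Y _ _ (hh B)).trans ?_
  obtain ⟨x, hx⟩ : ∃ x, x = ∑ i ∈ B, κ i := ⟨_, rfl⟩
  obtain ⟨x', hx'⟩ : ∃ x, x = ∑ i ∈ B, (e i - κ i) := ⟨_, rfl⟩
  rw [← hx, ← hx']
  have a1 := down Y (by positivity) H1 x
    (hx ▸ (sum_le_sum_of_subset (subset_univ B)).trans (by omega))
  have a2 := up Yᶜ (by positivity) H2 x'
  have e1 : ∑ i, |ε i| + ∑ i, ε i = 2 * (a * x - b * x') := by
    rw [← sum_add_distrib, hx, hx']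
    push_cast
    rw [mul_sum, mul_sum, ← sum_sub_distrib, mul_sum, sum_filter]
    refine sum_congr rfl fun i _ => ?_
    split_ifs with h
    · rw [abs_of_pos h]; simp only [ε]; ring
    · rw [abs_of_nonpos (not_lt.1 h)]; ring
  have e2 : ∑ i, ε i = a * k - b * (n - k) := by
    simp only [ε, Nat.cast_sub (hκ' _), sum_sub_distrib, ← mul_sum, ← he, ← hk]; push_cast; ring
  have e3 : ∏ i, y ^ (-|ε i|) = y ^ (-∑ i, |ε i|) := by
    rw [← sum_neg_distrib]
    induction (univ : Finset ι) using Finset.induction_on with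
    | empty => simp
    | insert a s h ih => rw [prod_insert h, sum_insert h, zpow_add₀ y0.ne', ih]
  change _ ≤ _ * ∏ i, y ^ (-|ε i|)
  rw [e3]
  have a4 : h Y (p + k - x) ≤ y ^ (-(2 * a * x : ℤ)) * h Y (p + k) := by
    rw [zpow_neg, ← div_eq_inv_mul, le_div_iff₀ (by positivity), mul_comm]
    rwa [← pow_mul, ← zpow_natCast, Nat.cast_mul, Nat.cast_mul, Nat.cast_ofNat] at a1
  calc _ ≤ y ^ (-(2 * a * x : ℤ)) * h Y (p + k) * ((y ^ (2 * b)) ^ x' * h Yᶜ l) :=
        mul_le_mul a4 a2 (h0 _ _) (mul_nonneg (by positivity) (h0 _ _))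
    _ = h Y (p + k) * h Yᶜ l * y ^ (-(2 * a * x : ℤ) + 2 * b * x') := by
        rw [zpow_add₀ y0.ne', ← pow_mul, ← zpow_natCast y (2 * b * x')]; push_cast; ring
    _ ≤ _ := by
        rw [mul_assoc _ (y ^ b), ← zpow_natCast y b, ← zpow_add₀ y0.ne']
        exact mul_le_mul_of_nonneg_left (zpow_le_zpow_right₀ hy (by linarith))
          (mul_nonneg (h0 _ _) (h0 _ _))

end Vale.Agent.P346
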